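import Mathlib
import Vale.Agent.Lib.P328.RP.BoxDual

/-!
P328: the box certificate for equal column sums (paper proof by helper35, report 1238).

For a box `∏ j, [0, c0]` with all capacities equal, every colour function with zero sum over
the edges between the levels `q` and `q + 1` has a certificate with zero frames: with
`Z1 u j = (1 / n) * ∑ k, (φ j - φ k) [u j + u k + 1 ≤ c0]` and
`Z2 u j = (1 / n) * ∑ k, (φ j - φ k) [c0 ≤ u j + u k]`.

* `kd_lemma` : for an antisymmetric array `a` on a finite set `s`,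
  `∑ j ∈ s, (∑ k ∈ s, a j k) ^ 2 ≤ card s / 2 * ∑ j ∈ s, ∑ k ∈ s, a j k ^ 2`.
* `sum_edges_upper` : reindexing the edges by their upper vertex.
* `boxCert_equal_cols` : the certificate.
* `threeRow_equal_cols` : the three-row inequality for tables with margins `(r 0, r 1, 1)` and
  equal column sums.
-/

namespace Vale.Agent.Lib.P328.helper68

open Finset
open Vale.Agent.Lib.P328.RP

/-- **K_d lemma.**  For an antisymmetric array on a finite set `s` the sum of the squares of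
the row sums is at most `card s / 2` times the sum of the squares of the entries. -/
theorem kd_lemma {ι : Type*} (s : Finset ι) (a : ι → ι → ℝ) (ha : ∀ j k, a j k = - a k j) :
    ∑ j ∈ s, (∑ k ∈ s, a j k) ^ 2 ≤ (s.card : ℝ) / 2 * ∑ j ∈ s, ∑ k ∈ s, a j k ^ 2 := by
  have hcol : ∀ k, ∑ j ∈ s, a j k = - ∑ l ∈ s, a k l := by
    intro k
    rw [← Finset.sum_neg_distrib]
    exact Finset.sum_congr rfl (fun j _ => ha j k)
  have hnn : 0 ≤ ∑ j ∈ s, ∑ k ∈ s, ∑ l ∈ s, (a j k + a k l + a l j) ^ 2 :=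
    Finset.sum_nonneg (fun j _ => Finset.sum_nonneg (fun k _ =>
      Finset.sum_nonneg (fun l _ => sq_nonneg _)))
  have E1 : ∑ j ∈ s, ∑ k ∈ s, ∑ _l ∈ s, a j k ^ 2
      = (s.card : ℝ) * ∑ j ∈ s, ∑ k ∈ s, a j k ^ 2 := by
    simp only [Finset.sum_const, nsmul_eq_mul, Finset.mul_sum]
  have E2 : ∑ _j ∈ s, ∑ k ∈ s, ∑ l ∈ s, a k l ^ 2
      = (s.card : ℝ) * ∑ j ∈ s, ∑ k ∈ s, a j k ^ 2 := by
    simp only [Finset.sum_const, nsmul_eq_mul]
  have E3 : ∑ j ∈ s, ∑ _k ∈ s, ∑ l ∈ s, a l j ^ 2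
      = (s.card : ℝ) * ∑ j ∈ s, ∑ k ∈ s, a j k ^ 2 := by
    simp only [Finset.sum_const, nsmul_eq_mul, ← Finset.mul_sum]
    rw [Finset.sum_comm]
  have C1 : ∑ j ∈ s, ∑ k ∈ s, ∑ l ∈ s, a j k * a k l = - ∑ j ∈ s, (∑ k ∈ s, a j k) ^ 2 := by
    simp only [← Finset.mul_sum]
    rw [Finset.sum_comm]
    simp only [← Finset.sum_mul]
    rw [← Finset.sum_neg_distrib]
    refine Finset.sum_congr rfl (fun k _ => ?_)
    rw [hcol k]
    ring
  have C2 : ∑ j ∈ s, ∑ k ∈ s, ∑ l ∈ s, a k l * a l j = - ∑ j ∈ s, (∑ k ∈ s, a j k) ^ 2 := by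
    have h1 : ∀ j ∈ s, ∑ k ∈ s, ∑ l ∈ s, a k l * a l j
        = ∑ l ∈ s, (- ∑ k ∈ s, a l k) * a l j := by
      intro j _
      rw [Finset.sum_comm]
      refine Finset.sum_congr rfl (fun l _ => ?_)
      rw [← Finset.sum_mul, hcol l]
    rw [Finset.sum_congr rfl h1, Finset.sum_comm, ← Finset.sum_neg_distrib]
    refine Finset.sum_congr rfl (fun l _ => ?_)
    rw [← Finset.mul_sum]
    ring
  have C3 : ∑ j ∈ s, ∑ k ∈ s, ∑ l ∈ s, a l j * a j k = - ∑ j ∈ s, (∑ k ∈ s, a j k) ^ 2 := by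
    rw [← Finset.sum_neg_distrib]
    refine Finset.sum_congr rfl (fun j _ => ?_)
    simp only [← Finset.sum_mul]
    rw [← Finset.mul_sum, hcol j]
    ring
  have hpt : ∀ j k l, (a j k + a k l + a l j) ^ 2
      = a j k ^ 2 + a k l ^ 2 + a l j ^ 2 + 2 * (a j k * a k l) + 2 * (a k l * a l j)
        + 2 * (a l j * a j k) := by
    intro j k l
    ring
  have hexp : ∑ j ∈ s, ∑ k ∈ s, ∑ l ∈ s, (a j k + a k l + a l j) ^ 2
      = 3 * ((s.card : ℝ) * ∑ j ∈ s, ∑ k ∈ s, a j k ^ 2)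
        - 6 * ∑ j ∈ s, (∑ k ∈ s, a j k) ^ 2 := by
    have C1' : ∑ j ∈ s, ∑ k ∈ s, ∑ l ∈ s, 2 * (a j k * a k l)
        = 2 * (- ∑ j ∈ s, (∑ k ∈ s, a j k) ^ 2) := by
      rw [← C1]
      simp only [Finset.mul_sum]
    have C2' : ∑ j ∈ s, ∑ k ∈ s, ∑ l ∈ s, 2 * (a k l * a l j)
        = 2 * (- ∑ j ∈ s, (∑ k ∈ s, a j k) ^ 2) := by
      rw [← C2]
      simp only [Finset.mul_sum]
    have C3' : ∑ j ∈ s, ∑ k ∈ s, ∑ l ∈ s, 2 * (a l j * a j k)
        = 2 * (- ∑ j ∈ s, (∑ k ∈ s, a j k) ^ 2) := by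
      rw [← C3]
      simp only [Finset.mul_sum]
    simp only [hpt, Finset.sum_add_distrib]
    rw [E1, E2, E3, C1', C2', C3']
    ring
  rw [hexp] at hnn
  linarith

/-- the double sum of an antisymmetric array vanishes -/
theorem sum_antisymm {ι : Type*} (s : Finset ι) (a : ι → ι → ℝ) (ha : ∀ j k, a j k = - a k j) :
    ∑ j ∈ s, ∑ k ∈ s, a j k = 0 := by
  have h : ∑ j ∈ s, ∑ k ∈ s, a j k = - ∑ j ∈ s, ∑ k ∈ s, a j k := by
    conv_lhs => rw [Finset.sum_comm]
    rw [← Finset.sum_neg_distrib]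
    refine Finset.sum_congr rfl (fun j _ => ?_)
    rw [← Finset.sum_neg_distrib]
    exact Finset.sum_congr rfl (fun k _ => ha k j)
  linarith

/-- the sum of the entries after one entry is changed -/
theorem sum_update_nat {n : ℕ} (u : Fin n → ℕ) (j : Fin n) (v : ℕ) :
    ∑ l, Function.update u j v l + u j = ∑ l, u l + v := by
  classical
  rw [Finset.sum_update_of_mem (Finset.mem_univ j), Finset.sdiff_singleton_eq_erase,
    ← Finset.add_sum_erase univ u (Finset.mem_univ j)]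
  omega

/-- **Reindexing the edges by their upper vertex.** -/
theorem sum_edges_upper {n : ℕ} (c : Fin n → ℕ) (q : ℕ) (G : (Fin n → ℕ) → Fin n → ℝ) :
    ∑ u ∈ Lev c q, ∑ j ∈ univ.filter (fun j => u j < c j), G u j
      = ∑ y ∈ Lev c (q + 1), ∑ j ∈ univ.filter (fun j => 1 ≤ y j),
          G (Function.update y j (y j - 1)) j := by
  classical
  rw [Finset.sum_sigma', Finset.sum_sigma']
  refine Finset.sum_bij'
    (fun p _ => (⟨Function.update p.1 p.2 (p.1 p.2 + 1), p.2⟩ : Σ _ : Fin n → ℕ, Fin n))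
    (fun p _ => (⟨Function.update p.1 p.2 (p.1 p.2 - 1), p.2⟩ : Σ _ : Fin n → ℕ, Fin n))
    ?_ ?_ ?_ ?_ ?_
  · rintro ⟨u, j⟩ hp
    simp only [Finset.mem_sigma, Finset.mem_filter, Finset.mem_univ, true_and] at hp
    obtain ⟨hu, hj⟩ := hp
    rw [mem_Lev] at hu
    rw [Finset.mem_sigma, Finset.mem_filter, mem_Lev]
    refine ⟨⟨?_, ?_⟩, Finset.mem_univ _, ?_⟩
    · intro l
      by_cases hl : l = j
      · subst hl
        show Function.update u l (u l + 1) l ≤ c l
        rw [Function.update_self]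
        exact hj
      · show Function.update u j (u j + 1) l ≤ c l
        rw [Function.update_of_ne hl]
        exact hu.1 l
    · have h1 := sum_update_nat u j (u j + 1)
      have h2 := hu.2
      show ∑ l, Function.update u j (u j + 1) l = q + 1
      omega
    · show 1 ≤ Function.update u j (u j + 1) j
      rw [Function.update_self]
      omega
  · rintro ⟨y, j⟩ hp
    simp only [Finset.mem_sigma, Finset.mem_filter, Finset.mem_univ, true_and] at hp
    obtain ⟨hy, hj⟩ := hp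
    rw [mem_Lev] at hy
    rw [Finset.mem_sigma, Finset.mem_filter, mem_Lev]
    have hj' : 1 ≤ y j := hj
    refine ⟨⟨?_, ?_⟩, Finset.mem_univ _, ?_⟩
    · intro l
      by_cases hl : l = j
      · subst hl
        show Function.update y l (y l - 1) l ≤ c l
        rw [Function.update_self]
        have := hy.1 l
        omega
      · show Function.update y j (y j - 1) l ≤ c l
        rw [Function.update_of_ne hl]
        exact hy.1 l
    · have h1 := sum_update_nat y j (y j - 1)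
      have h2 := hy.2
      show ∑ l, Function.update y j (y j - 1) l = q
      omega
    · show Function.update y j (y j - 1) j < c j
      rw [Function.update_self]
      have := hy.1 j
      omega
  · rintro ⟨u, j⟩ _
    simp only [Function.update_self, Function.update_idem, Nat.add_sub_cancel,
      Function.update_eq_self]
  · rintro ⟨y, j⟩ hp
    simp only [Finset.mem_sigma, Finset.mem_filter, Finset.mem_univ, true_and] at hp
    have hj' : 1 ≤ y j := hp.2
    simp only [Function.update_self, Function.update_idem, Nat.sub_add_cancel hj',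
      Function.update_eq_self]
  · rintro ⟨u, j⟩ _
    simp only [Function.update_self, Function.update_idem, Nat.add_sub_cancel,
      Function.update_eq_self]

/-- for equal capacities the number of vertices of a level at which a column is free does not
depend on the column -/
theorem card_free_eq {n : ℕ} (c : Fin n → ℕ) (c0 : ℕ) (hc : ∀ j, c j = c0) (q : ℕ)
    (j k : Fin n) :
    ((Lev c q).filter (fun u => u j < c0)).card = ((Lev c q).filter (fun u => u k < c0)).card := by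
  classical
  have key : ∀ j k : Fin n, ∀ u ∈ (Lev c q).filter (fun u => u j < c0),
      u ∘ Equiv.swap j k ∈ (Lev c q).filter (fun u => u k < c0) := by
    intro j k u hu
    rw [Finset.mem_filter, mem_Lev] at hu ⊢
    obtain ⟨⟨h1, h2⟩, h3⟩ := hu
    refine ⟨⟨fun l => ?_, ?_⟩, ?_⟩
    · have := h1 (Equiv.swap j k l)
      rw [hc] at this ⊢
      exact this
    · rw [← h2]
      exact Equiv.sum_comp (Equiv.swap j k) u
    · show u (Equiv.swap j k k) < c0
      rw [Equiv.swap_apply_right]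
      exact h3
  refine Finset.card_bij' (fun u _ => u ∘ Equiv.swap j k) (fun u _ => u ∘ Equiv.swap k j)
    (key j k) (key k j) ?_ ?_
  · intro u _
    funext l
    simp [Function.comp, Equiv.swap_comm k j]
  · intro u _
    funext l
    simp [Function.comp, Equiv.swap_comm k j]

/-- for equal capacities the sum over the edges of a function of the colour is the number of
edges of one colour times the sum of the function -/
theorem sum_edges_colour {n : ℕ} (c : Fin n → ℕ) (c0 : ℕ) (hc : ∀ j, c j = c0) (q : ℕ)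
    (j0 : Fin n) (G : Fin n → ℝ) :
    ∑ u ∈ Lev c q, ∑ j ∈ univ.filter (fun j => u j < c j), G j
      = (((Lev c q).filter (fun u => u j0 < c0)).card : ℝ) * ∑ j, G j := by
  classical
  have h1 : ∀ u ∈ Lev c q, ∑ j ∈ univ.filter (fun j => u j < c j), G j
      = ∑ j, if u j < c0 then G j else 0 := by
    intro u _
    rw [Finset.sum_filter]
    refine Finset.sum_congr rfl (fun j _ => ?_)
    rw [hc j]
  rw [Finset.sum_congr rfl h1, Finset.sum_comm, Finset.mul_sum]
  refine Finset.sum_congr rfl (fun j _ => ?_)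
  rw [← Finset.sum_filter, Finset.sum_const, nsmul_eq_mul, card_free_eq c c0 hc q j j0]

/-- the pair array at a lower vertex: `φ j - φ k` when `u j + u k + 1 ≤ c0` -/
noncomputable def aLow {n : ℕ} (c0 : ℕ) (φ : Fin n → ℝ) (u : Fin n → ℕ) (j k : Fin n) : ℝ :=
  if u j + u k + 1 ≤ c0 then φ j - φ k else 0

/-- the pair array at an upper vertex: `φ j - φ k` when `c0 + 1 ≤ y j + y k` -/
noncomputable def aUp {n : ℕ} (c0 : ℕ) (φ : Fin n → ℝ) (y : Fin n → ℕ) (j k : Fin n) : ℝ :=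
  if c0 + 1 ≤ y j + y k then φ j - φ k else 0

/-- the lower part of the certificate -/
noncomputable def Z1 {n : ℕ} (c0 : ℕ) (φ : Fin n → ℝ) (u : Fin n → ℕ) (j : Fin n) : ℝ :=
  (1 / (n : ℝ)) * ∑ k, aLow c0 φ u j k

/-- the upper part of the certificate -/
noncomputable def Z2 {n : ℕ} (c0 : ℕ) (φ : Fin n → ℝ) (u : Fin n → ℕ) (j : Fin n) : ℝ :=
  (1 / (n : ℝ)) * ∑ k, if c0 ≤ u j + u k then φ j - φ k else 0

theorem aLow_antisymm {n : ℕ} (c0 : ℕ) (φ : Fin n → ℝ) (u : Fin n → ℕ) (j k : Fin n) :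
    aLow c0 φ u j k = - aLow c0 φ u k j := by
  unfold aLow
  by_cases h : u j + u k + 1 ≤ c0
  · rw [if_pos h, if_pos (by omega)]
    ring
  · rw [if_neg h, if_neg (by omega)]
    ring

theorem aUp_antisymm {n : ℕ} (c0 : ℕ) (φ : Fin n → ℝ) (y : Fin n → ℕ) (j k : Fin n) :
    aUp c0 φ y j k = - aUp c0 φ y k j := by
  unfold aUp
  by_cases h : c0 + 1 ≤ y j + y k
  · rw [if_pos h, if_pos (by omega)]
    ring
  · rw [if_neg h, if_neg (by omega)]
    ring

theorem aLow_eq_zero {n : ℕ} (c0 : ℕ) (φ : Fin n → ℝ) (u : Fin n → ℕ) (j k : Fin n)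
    (h : c0 ≤ u j ∨ c0 ≤ u k) : aLow c0 φ u j k = 0 := by
  unfold aLow
  rw [if_neg (by omega)]

theorem aUp_eq_zero {n : ℕ} (c0 : ℕ) (φ : Fin n → ℝ) (y : Fin n → ℕ) (hy : ∀ l, y l ≤ c0)
    (j k : Fin n) (h : y j = 0 ∨ y k = 0) : aUp c0 φ y j k = 0 := by
  unfold aUp
  have h1 := hy j
  have h2 := hy k
  rw [if_neg (by omega)]

/-- the two parts add up to the colour function when its sum vanishes -/
theorem Z_split {n : ℕ} (c0 : ℕ) (φ : Fin n → ℝ) (hφ : ∑ j, φ j = 0) (u : Fin n → ℕ)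
    (j : Fin n) : Z1 c0 φ u j + Z2 c0 φ u j = φ j := by
  have hn : (n : ℝ) ≠ 0 := by
    have h0 : 0 < n := Fin.pos j
    exact_mod_cast h0.ne'
  unfold Z1 Z2 aLow
  rw [← mul_add, ← Finset.sum_add_distrib]
  have h1 : ∀ k ∈ (univ : Finset (Fin n)),
      ((if u j + u k + 1 ≤ c0 then φ j - φ k else 0)
        + (if c0 ≤ u j + u k then φ j - φ k else 0)) = φ j - φ k := by
    intro k _
    by_cases h : u j + u k + 1 ≤ c0
    · rw [if_pos h, if_neg (by omega), add_zero]
    · rw [if_neg h, if_pos (by omega), zero_add]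
  rw [Finset.sum_congr rfl h1, Finset.sum_sub_distrib, hφ, Finset.sum_const, Finset.card_univ,
    Fintype.card_fin, nsmul_eq_mul]
  field_simp
  ring

/-- the sums of the lower part over the edges at a lower vertex vanish -/
theorem Z1_lower {n : ℕ} (c : Fin n → ℕ) (c0 : ℕ) (hc : ∀ j, c j = c0) (φ : Fin n → ℝ)
    (u : Fin n → ℕ) : ∑ j ∈ univ.filter (fun j => u j < c j), Z1 c0 φ u j = 0 := by
  have h1 : ∑ j ∈ univ.filter (fun j => u j < c j), Z1 c0 φ u j = ∑ j, Z1 c0 φ u j := by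
    apply Finset.sum_filter_of_ne
    intro j _ hne
    by_contra hj
    apply hne
    unfold Z1
    rw [Finset.sum_eq_zero, mul_zero]
    intro k _
    rw [hc] at hj
    exact aLow_eq_zero c0 φ u j k (Or.inl (by omega))
  rw [h1]
  unfold Z1
  rw [← Finset.mul_sum, sum_antisymm univ _ (aLow_antisymm c0 φ u), mul_zero]

/-- the upper part on the edge below an upper vertex, in terms of the upper vertex -/
theorem Z2_upper_eq {n : ℕ} (c0 : ℕ) (φ : Fin n → ℝ) (y : Fin n → ℕ) (j : Fin n)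
    (hj : 1 ≤ y j) :
    Z2 c0 φ (Function.update y j (y j - 1)) j = (1 / (n : ℝ)) * ∑ k, aUp c0 φ y j k := by
  unfold Z2 aUp
  congr 1
  refine Finset.sum_congr rfl (fun k _ => ?_)
  by_cases hk : k = j
  · subst hk
    simp
  · rw [Function.update_self, Function.update_of_ne hk]
    by_cases h : c0 + 1 ≤ y j + y k
    · rw [if_pos h, if_pos (by omega)]
    · rw [if_neg h, if_neg (by omega)]

/-- the sums of the upper part over the edges at an upper vertex vanish -/
theorem Z2_upper {n : ℕ} (c0 : ℕ) (φ : Fin n → ℝ) (y : Fin n → ℕ) (hy : ∀ l, y l ≤ c0) :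
    ∑ j ∈ univ.filter (fun j => 1 ≤ y j), Z2 c0 φ (Function.update y j (y j - 1)) j = 0 := by
  have h1 : ∑ j ∈ univ.filter (fun j => 1 ≤ y j), Z2 c0 φ (Function.update y j (y j - 1)) j
      = ∑ j ∈ univ.filter (fun j => 1 ≤ y j), (1 / (n : ℝ)) * ∑ k, aUp c0 φ y j k :=
    Finset.sum_congr rfl (fun j hj => Z2_upper_eq c0 φ y j (Finset.mem_filter.mp hj).2)
  have h2 : ∑ j ∈ univ.filter (fun j => 1 ≤ y j), (1 / (n : ℝ)) * ∑ k, aUp c0 φ y j k
      = ∑ j, (1 / (n : ℝ)) * ∑ k, aUp c0 φ y j k := by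
    apply Finset.sum_filter_of_ne
    intro j _ hne
    by_contra hj
    apply hne
    rw [Finset.sum_eq_zero, mul_zero]
    intro k _
    exact aUp_eq_zero c0 φ y hy j k (Or.inl (by omega))
  rw [h1, h2, ← Finset.mul_sum, sum_antisymm univ _ (aUp_antisymm c0 φ y), mul_zero]

/-- the K_d bound at a lower vertex -/
theorem Z1_sq_le {n : ℕ} (c : Fin n → ℕ) (c0 : ℕ) (hc : ∀ j, c j = c0) (φ : Fin n → ℝ)
    (u : Fin n → ℕ) :
    ∑ j ∈ univ.filter (fun j => u j < c j), Z1 c0 φ u j ^ 2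
      ≤ (1 / (n : ℝ)) ^ 2 * (((univ.filter (fun j => u j < c j)).card : ℝ) / 2
          * ∑ j, ∑ k, aLow c0 φ u j k ^ 2) := by
  set F := univ.filter (fun j => u j < c j) with hF
  have h1 : ∀ j ∈ F, Z1 c0 φ u j = (1 / (n : ℝ)) * ∑ k ∈ F, aLow c0 φ u j k := by
    intro j _
    unfold Z1
    congr 1
    symm
    rw [hF]
    apply Finset.sum_filter_of_ne
    intro k _ hne
    by_contra hk
    rw [hc] at hk
    exact hne (aLow_eq_zero c0 φ u j k (Or.inr (by omega)))
  have h2 : ∑ j ∈ F, Z1 c0 φ u j ^ 2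
      = (1 / (n : ℝ)) ^ 2 * ∑ j ∈ F, (∑ k ∈ F, aLow c0 φ u j k) ^ 2 := by
    rw [Finset.mul_sum]
    refine Finset.sum_congr rfl (fun j hj => ?_)
    rw [h1 j hj]
    ring
  rw [h2]
  apply mul_le_mul_of_nonneg_left _ (sq_nonneg _)
  refine (kd_lemma F _ (aLow_antisymm c0 φ u)).trans ?_
  apply mul_le_mul_of_nonneg_left _ (by positivity)
  calc ∑ j ∈ F, ∑ k ∈ F, aLow c0 φ u j k ^ 2
      ≤ ∑ j ∈ F, ∑ k, aLow c0 φ u j k ^ 2 :=
        Finset.sum_le_sum (fun j _ => Finset.sum_le_sum_of_subset_of_nonneg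
          (Finset.subset_univ _) (fun k _ _ => sq_nonneg _))
    _ ≤ ∑ j, ∑ k, aLow c0 φ u j k ^ 2 :=
        Finset.sum_le_sum_of_subset_of_nonneg (Finset.subset_univ _)
          (fun j _ _ => Finset.sum_nonneg (fun k _ => sq_nonneg _))

/-- the K_d bound at an upper vertex -/
theorem Z2_sq_le {n : ℕ} (c0 : ℕ) (φ : Fin n → ℝ) (y : Fin n → ℕ) (hy : ∀ l, y l ≤ c0) :
    ∑ j ∈ univ.filter (fun j => 1 ≤ y j), Z2 c0 φ (Function.update y j (y j - 1)) j ^ 2
      ≤ (1 / (n : ℝ)) ^ 2 * (((univ.filter (fun j => 1 ≤ y j)).card : ℝ) / 2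
          * ∑ j, ∑ k, aUp c0 φ y j k ^ 2) := by
  set O := univ.filter (fun j => 1 ≤ y j) with hO
  have h1 : ∀ j ∈ O, Z2 c0 φ (Function.update y j (y j - 1)) j
      = (1 / (n : ℝ)) * ∑ k ∈ O, aUp c0 φ y j k := by
    intro j hj
    rw [hO] at hj
    rw [Z2_upper_eq c0 φ y j (Finset.mem_filter.mp hj).2]
    congr 1
    symm
    rw [hO]
    apply Finset.sum_filter_of_ne
    intro k _ hne
    by_contra hk
    exact hne (aUp_eq_zero c0 φ y hy j k (Or.inr (by omega)))
  have h2 : ∑ j ∈ O, Z2 c0 φ (Function.update y j (y j - 1)) j ^ 2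
      = (1 / (n : ℝ)) ^ 2 * ∑ j ∈ O, (∑ k ∈ O, aUp c0 φ y j k) ^ 2 := by
    rw [Finset.mul_sum]
    refine Finset.sum_congr rfl (fun j hj => ?_)
    rw [h1 j hj]
    ring
  rw [h2]
  apply mul_le_mul_of_nonneg_left _ (sq_nonneg _)
  refine (kd_lemma O _ (aUp_antisymm c0 φ y)).trans ?_
  apply mul_le_mul_of_nonneg_left _ (by positivity)
  calc ∑ j ∈ O, ∑ k ∈ O, aUp c0 φ y j k ^ 2
      ≤ ∑ j ∈ O, ∑ k, aUp c0 φ y j k ^ 2 :=
        Finset.sum_le_sum (fun j _ => Finset.sum_le_sum_of_subset_of_nonneg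
          (Finset.subset_univ _) (fun k _ _ => sq_nonneg _))
    _ ≤ ∑ j, ∑ k, aUp c0 φ y j k ^ 2 :=
        Finset.sum_le_sum_of_subset_of_nonneg (Finset.subset_univ _)
          (fun j _ _ => Finset.sum_nonneg (fun k _ => sq_nonneg _))

/-- on an edge the two threshold conditions for a pair of distinct columns exclude each
other -/
theorem pair_le {n : ℕ} (c0 : ℕ) (φ : Fin n → ℝ) (u : Fin n → ℕ) (l j k : Fin n) :
    aLow c0 φ u j k ^ 2 + aUp c0 φ (Function.update u l (u l + 1)) j k ^ 2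
      ≤ (φ j - φ k) ^ 2 := by
  unfold aLow aUp
  by_cases hjk : j = k
  · subst hjk
    simp
  · have hy : Function.update u l (u l + 1) j + Function.update u l (u l + 1) k
        ≤ u j + u k + 1 := by
      by_cases h1 : j = l
      · have h2 : k ≠ l := fun h => hjk (h1.trans h.symm)
        rw [Function.update_of_ne h2, h1, Function.update_self]
        omega
      · rw [Function.update_of_ne h1]
        by_cases h2 : k = l
        · rw [h2, Function.update_self]
          omega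
        · rw [Function.update_of_ne h2]
          omega
    by_cases hA : u j + u k + 1 ≤ c0
    · rw [if_pos hA, if_neg (by omega)]
      simp
    · rw [if_neg hA]
      by_cases hB : c0 + 1 ≤ Function.update u l (u l + 1) j + Function.update u l (u l + 1) k
      · rw [if_pos hB]
        simp
      · rw [if_neg hB]
        simp only [ne_eq, OfNat.ofNat_ne_zero, not_false_eq_true, zero_pow, add_zero]
        exact sq_nonneg _

/-- the sum of the squares of the pair array at a lower vertex -/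
noncomputable def T1 {n : ℕ} (c0 : ℕ) (φ : Fin n → ℝ) (u : Fin n → ℕ) : ℝ :=
  ∑ j, ∑ k, aLow c0 φ u j k ^ 2

/-- the sum of the squares of the pair array at an upper vertex -/
noncomputable def T2 {n : ℕ} (c0 : ℕ) (φ : Fin n → ℝ) (y : Fin n → ℕ) : ℝ :=
  ∑ j, ∑ k, aUp c0 φ y j k ^ 2

theorem T_le {n : ℕ} (c0 : ℕ) (φ : Fin n → ℝ) (u : Fin n → ℕ) (l : Fin n) :
    T1 c0 φ u + T2 c0 φ (Function.update u l (u l + 1)) ≤ ∑ j, ∑ k, (φ j - φ k) ^ 2 := by
  unfold T1 T2
  rw [← Finset.sum_add_distrib]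
  refine Finset.sum_le_sum (fun j _ => ?_)
  rw [← Finset.sum_add_distrib]
  exact Finset.sum_le_sum (fun k _ => pair_le c0 φ u l j k)

/-- the sum of the squared differences of a function with zero sum -/
theorem sum_sq_diff {n : ℕ} (φ : Fin n → ℝ) (hφ : ∑ j, φ j = 0) :
    ∑ j, ∑ k, (φ j - φ k) ^ 2 = 2 * (n : ℝ) * ∑ j, φ j ^ 2 := by
  have e1 : ∑ j : Fin n, ∑ _k : Fin n, φ j ^ 2 = (n : ℝ) * ∑ j, φ j ^ 2 := by
    simp only [Finset.sum_const, Finset.card_univ, Fintype.card_fin, nsmul_eq_mul,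
      Finset.mul_sum]
  have e2 : ∑ j, ∑ k, φ j * φ k = 0 := by
    simp only [← Finset.mul_sum, hφ, mul_zero, Finset.sum_const_zero]
  have e3 : ∑ _j : Fin n, ∑ k, φ k ^ 2 = (n : ℝ) * ∑ j, φ j ^ 2 := by
    simp only [Finset.sum_const, Finset.card_univ, Fintype.card_fin, nsmul_eq_mul]
  calc ∑ j, ∑ k, (φ j - φ k) ^ 2
      = ∑ j, ∑ k, (φ j ^ 2 - 2 * (φ j * φ k) + φ k ^ 2) :=
        Finset.sum_congr rfl (fun j _ => Finset.sum_congr rfl (fun k _ => by ring))
    _ = ∑ j : Fin n, ∑ _k : Fin n, φ j ^ 2 - 2 * ∑ j, ∑ k, φ j * φ k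
          + ∑ _j : Fin n, ∑ k, φ k ^ 2 := by
        simp only [Finset.sum_add_distrib, Finset.sum_sub_distrib, Finset.mul_sum]
    _ = 2 * (n : ℝ) * ∑ j, φ j ^ 2 := by
        rw [e1, e2, e3]
        ring

/-- the cross term of the certificate is nonnegative -/
theorem cross_nonneg {n : ℕ} (c : Fin n → ℕ) (c0 : ℕ) (hc : ∀ j, c j = c0) (q : ℕ)
    (φ : Fin n → ℝ) (hφ : ∑ j, φ j = 0) (j0 : Fin n) :
    0 ≤ ∑ u ∈ Lev c q, ∑ j ∈ univ.filter (fun j => u j < c j),
      Z1 c0 φ u j * Z2 c0 φ u j := by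
  classical
  have hn : (n : ℝ) ≠ 0 := by
    have h0 : 0 < n := Fin.pos j0
    exact_mod_cast h0.ne'
  set M : ℝ := (((Lev c q).filter (fun u => u j0 < c0)).card : ℝ) with hM
  have hM0 : 0 ≤ M := Nat.cast_nonneg _
  have hEφ : ∑ u ∈ Lev c q, ∑ j ∈ univ.filter (fun j => u j < c j), φ j ^ 2
      = M * ∑ j, φ j ^ 2 := sum_edges_colour c c0 hc q j0 (fun j => φ j ^ 2)
  have hE1 : ∑ u ∈ Lev c q, ((univ.filter (fun j => u j < c j)).card : ℝ) = M * (n : ℝ) := by
    have h1 := sum_edges_colour c c0 hc q j0 (fun _ => (1 : ℝ))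
    simp only [Finset.sum_const, Finset.card_univ, Fintype.card_fin, nsmul_eq_mul,
      mul_one] at h1
    exact h1
  have hS1 : ∑ u ∈ Lev c q, ∑ j ∈ univ.filter (fun j => u j < c j), Z1 c0 φ u j ^ 2
      ≤ (1 / (n : ℝ)) ^ 2 * (1 / 2)
        * ∑ u ∈ Lev c q, ∑ _l ∈ univ.filter (fun j => u j < c j), T1 c0 φ u := by
    rw [Finset.mul_sum]
    refine Finset.sum_le_sum (fun u _ => ?_)
    refine (Z1_sq_le c c0 hc φ u).trans (le_of_eq ?_)
    rw [Finset.sum_const, nsmul_eq_mul]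
    unfold T1
    ring
  have hS2 : ∑ u ∈ Lev c q, ∑ j ∈ univ.filter (fun j => u j < c j), Z2 c0 φ u j ^ 2
      ≤ (1 / (n : ℝ)) ^ 2 * (1 / 2)
        * ∑ u ∈ Lev c q, ∑ l ∈ univ.filter (fun j => u j < c j),
            T2 c0 φ (Function.update u l (u l + 1)) := by
    calc ∑ u ∈ Lev c q, ∑ j ∈ univ.filter (fun j => u j < c j), Z2 c0 φ u j ^ 2
        = ∑ y ∈ Lev c (q + 1), ∑ j ∈ univ.filter (fun j => 1 ≤ y j),
            Z2 c0 φ (Function.update y j (y j - 1)) j ^ 2 :=
          sum_edges_upper c q (fun u j => Z2 c0 φ u j ^ 2)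
      _ ≤ ∑ y ∈ Lev c (q + 1), (1 / (n : ℝ)) ^ 2 * (1 / 2)
            * ∑ _l ∈ univ.filter (fun j => 1 ≤ y j), T2 c0 φ y := by
          refine Finset.sum_le_sum (fun y hy => ?_)
          have hy' : ∀ l, y l ≤ c0 := fun l => by
            have h1 := ((mem_Lev c (q + 1) y).mp hy).1 l
            rw [hc] at h1
            exact h1
          refine (Z2_sq_le c0 φ y hy').trans (le_of_eq ?_)
          rw [Finset.sum_const, nsmul_eq_mul]
          unfold T2
          ring
      _ = (1 / (n : ℝ)) ^ 2 * (1 / 2)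
            * ∑ y ∈ Lev c (q + 1), ∑ _l ∈ univ.filter (fun j => 1 ≤ y j), T2 c0 φ y := by
          rw [Finset.mul_sum]
      _ = (1 / (n : ℝ)) ^ 2 * (1 / 2)
            * ∑ u ∈ Lev c q, ∑ l ∈ univ.filter (fun j => u j < c j),
                T2 c0 φ (Function.update u l (u l + 1)) := by
          congr 1
          rw [sum_edges_upper c q (fun u l => T2 c0 φ (Function.update u l (u l + 1)))]
          refine Finset.sum_congr rfl (fun y _ => Finset.sum_congr rfl (fun l hl => ?_))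
          have hl' : 1 ≤ y l := (Finset.mem_filter.mp hl).2
          simp only [Function.update_self, Function.update_idem, Nat.sub_add_cancel hl',
            Function.update_eq_self]
  have hcomb : ∑ u ∈ Lev c q, ∑ _l ∈ univ.filter (fun j => u j < c j), T1 c0 φ u
      + ∑ u ∈ Lev c q, ∑ l ∈ univ.filter (fun j => u j < c j),
          T2 c0 φ (Function.update u l (u l + 1))
      ≤ M * (n : ℝ) * ∑ j, ∑ k, (φ j - φ k) ^ 2 := by
    rw [← Finset.sum_add_distrib, ← hE1, Finset.sum_mul]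
    refine Finset.sum_le_sum (fun u _ => ?_)
    rw [← Finset.sum_add_distrib, ← nsmul_eq_mul, ← Finset.sum_const]
    exact Finset.sum_le_sum (fun l _ => T_le c0 φ u l)
  have hfin : ∑ u ∈ Lev c q, ∑ j ∈ univ.filter (fun j => u j < c j), Z1 c0 φ u j ^ 2
      + ∑ u ∈ Lev c q, ∑ j ∈ univ.filter (fun j => u j < c j), Z2 c0 φ u j ^ 2
      ≤ M * ∑ j, φ j ^ 2 := by
    have h1 : (0 : ℝ) ≤ (1 / (n : ℝ)) ^ 2 * (1 / 2) := by positivity
    have h2 := mul_le_mul_of_nonneg_left hcomb h1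
    have h3 : (1 / (n : ℝ)) ^ 2 * (1 / 2) * (M * (n : ℝ) * ∑ j, ∑ k, (φ j - φ k) ^ 2)
        = M * ∑ j, φ j ^ 2 := by
      rw [sum_sq_diff φ hφ]
      field_simp
    rw [mul_add] at h2
    linarith
  have hpt : ∀ u ∈ Lev c q, ∀ j ∈ univ.filter (fun j => u j < c j),
      Z1 c0 φ u j * Z2 c0 φ u j
        = (φ j ^ 2 - Z1 c0 φ u j ^ 2 - Z2 c0 φ u j ^ 2) / 2 := by
    intro u _ j _
    have h1 := Z_split c0 φ hφ u j
    rw [← h1]
    ring
  rw [Finset.sum_congr rfl (fun u hu => Finset.sum_congr rfl (hpt u hu))]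
  simp only [← Finset.sum_div, Finset.sum_sub_distrib]
  rw [hEφ]
  linarith

/-- **Equal columns.**  In a box with equal capacities every colour function with zero sum
over the edges between two consecutive levels has a certificate with zero frames. -/
theorem boxCert_equal_cols {n : ℕ} (c : Fin n → ℕ) (c0 : ℕ) (hc : ∀ j, c j = c0) (q : ℕ)
    (φ : Fin n → ℝ)
    (h : ∑ u ∈ Lev c q, ∑ j ∈ univ.filter (fun j : Fin n => u j < c j), φ j = 0) :
    BoxCert c q φ 0 0 := by
  classical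
  by_cases hE : ∃ u ∈ Lev c q, ∃ j, u j < c j
  · obtain ⟨u0, hu0, j0, hj0⟩ := hE
    have hM : 0 < ((Lev c q).filter (fun u => u j0 < c0)).card :=
      Finset.card_pos.mpr ⟨u0, Finset.mem_filter.mpr ⟨hu0, by rw [← hc j0]; exact hj0⟩⟩
    have hφ : ∑ j, φ j = 0 := by
      rw [sum_edges_colour c c0 hc q j0 φ] at h
      rcases mul_eq_zero.mp h with h' | h'
      · exfalso
        have h2 : (0 : ℝ) < (((Lev c q).filter (fun u => u j0 < c0)).card : ℝ) :=
          Nat.cast_pos.mpr hM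
        linarith
      · exact h'
    refine ⟨Z1 c0 φ, Z2 c0 φ, fun u _ j _ => Z_split c0 φ hφ u j,
      fun u _ => Z1_lower c c0 hc φ u, fun y hy => Z2_upper c0 φ y (fun l => ?_),
      cross_nonneg c c0 hc q φ hφ j0⟩
    have h1 := ((mem_Lev c (q + 1) y).mp hy).1 l
    rw [hc] at h1
    exact h1
  · refine ⟨fun _ _ => 0, fun _ _ => 0, ?_, ?_, ?_, ?_⟩
    · intro u hu j hj
      exact absurd ⟨u, hu, j, hj⟩ hE
    · intro u _
      simp
    · intro y _
      simp
    · simp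

/-- **Three-row inequality for equal column sums.**  For tables with three rows, last row sum
one and all column sums equal. -/
theorem threeRow_equal_cols {n : ℕ} (r : Fin 3 → ℕ) (c : Fin n → ℕ) (hr : r 2 = 1) (c0 : ℕ)
    (hc : ∀ j, c j = c0) (f : CT 3 n r c → ℝ) :
    ∑ q ∈ (univ : Finset (Fin 3)).powersetCard 2,
        Vale.Agent.Lib.P335.Bip.ip f (R q f)
      ≤ 2 * Vale.Agent.Lib.P335.Bip.ip f f + Vale.Agent.Lib.P335.Bip.ip f (R univ f) :=
  threeRow_of_boxCert r c hr (fun φ h => boxCert_equal_cols c c0 hc (r 0) φ h) f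

end Vale.Agent.Lib.P328.helper68
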